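import Vale.Agent.P174.Abelian

/-!
Howie's conjecture holds for every group that is an extension of an abelian group by a locally
indicable group.
-/

namespace Vale.Agent.Results.P174.AbelianByLI

open Vale.Agent.P174

universe u

theorem result {G : Type u} [Group G] (N : Subgroup G) [N.Normal]
    (hN : ∀ a ∈ N, ∀ b ∈ N, a * b = b * a) (hQ : LocallyIndicable (G ⧸ N))
    (m n : ℕ) (w : Fin m → Monoid.Coprod G (FreeGroup (Fin n))) (hw : Nonsingular w) :
    SolvableOver w :=
  howieProp_of_abelian_by_locallyIndicable N hN hQ m n w hw

end Vale.Agent.Results.P174.AbelianByLI
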