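import Vale.Agent.P174.Abelian

/-!
Howie's conjecture, stated with Mathlib notions only and in the canonical-map form of the problem
file (injectivity of `G → (G * F_n) / ⟨⟨w_1, ..., w_m⟩⟩`):

1. reduction to the finitely generated subgroups without nontrivial homomorphism to `ℤ`;
2. closure of the class of groups satisfying the conjecture under extensions with locally
   indicable quotient.
-/

namespace Vale.Agent.Results.P174.CanonicalMapForm

open Vale.Agent.P174

universe u

private theorem bridge {B : Type u} [Group B] :
    HowieProp B ↔
      ∀ (m n : ℕ) (w : Fin m → Monoid.Coprod B (FreeGroup (Fin n))),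
        (Matrix.of fun (i : Fin m) (j : Fin n) =>
          (((Multiplicative.toAdd
            (Monoid.Coprod.lift (1 : B →* Multiplicative (Fin n → ℤ))
              (FreeGroup.lift fun k => Multiplicative.ofAdd (Pi.single k (1 : ℤ))) (w i))) j : ℤ)
                : ℚ)).rank = m →
        Function.Injective
          ((QuotientGroup.mk' (Subgroup.normalClosure (Set.range w))).comp
            (Monoid.Coprod.inl : B →* Monoid.Coprod B (FreeGroup (Fin n)))) := by
  have key : ∀ (m n : ℕ) (w : Fin m → Monoid.Coprod B (FreeGroup (Fin n))),
      SolvableOver w ↔ Function.Injective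
          ((QuotientGroup.mk' (Subgroup.normalClosure (Set.range w))).comp
            (Monoid.Coprod.inl : B →* Monoid.Coprod B (FreeGroup (Fin n)))) := by
    intro m n w
    rw [solvableOver_iff, injective_iff_map_eq_one]
    constructor
    · intro h b hb
      apply h b
      simpa using hb
    · intro h b hb
      apply h b
      simpa using hb
  constructor
  · intro h m n w hw
    exact (key m n w).1 (h m n w hw)
  · intro h m n w hw
    exact (key m n w).2 (h m n w hw)

theorem result {G : Type u} [Group G] :
    -- (1) reduction to finitely generated subgroups with no nontrivial homomorphism to `ℤ`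
    ((∀ B : Subgroup G, B.FG → (∀ φ : B →* Multiplicative ℤ, φ = 1) →
      ∀ (m n : ℕ) (w : Fin m → Monoid.Coprod B (FreeGroup (Fin n))),
        (Matrix.of fun (i : Fin m) (j : Fin n) =>
          (((Multiplicative.toAdd
            (Monoid.Coprod.lift (1 : B →* Multiplicative (Fin n → ℤ))
              (FreeGroup.lift fun k => Multiplicative.ofAdd (Pi.single k (1 : ℤ))) (w i))) j : ℤ)
                : ℚ)).rank = m →
        Function.Injective
          ((QuotientGroup.mk' (Subgroup.normalClosure (Set.range w))).comp
            (Monoid.Coprod.inl : B →* Monoid.Coprod B (FreeGroup (Fin n))))) →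
      ∀ (m n : ℕ) (w : Fin m → Monoid.Coprod G (FreeGroup (Fin n))),
        (Matrix.of fun (i : Fin m) (j : Fin n) =>
          (((Multiplicative.toAdd
            (Monoid.Coprod.lift (1 : G →* Multiplicative (Fin n → ℤ))
              (FreeGroup.lift fun k => Multiplicative.ofAdd (Pi.single k (1 : ℤ))) (w i))) j : ℤ)
                : ℚ)).rank = m →
        Function.Injective
          ((QuotientGroup.mk' (Subgroup.normalClosure (Set.range w))).comp
            (Monoid.Coprod.inl : G →* Monoid.Coprod G (FreeGroup (Fin n))))) ∧
    -- (2) closure under extensions with locally indicable quotient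
    (∀ (N : Subgroup G) [N.Normal],
      (∀ (m n : ℕ) (w : Fin m → Monoid.Coprod N (FreeGroup (Fin n))),
        (Matrix.of fun (i : Fin m) (j : Fin n) =>
          (((Multiplicative.toAdd
            (Monoid.Coprod.lift (1 : N →* Multiplicative (Fin n → ℤ))
              (FreeGroup.lift fun k => Multiplicative.ofAdd (Pi.single k (1 : ℤ))) (w i))) j : ℤ)
                : ℚ)).rank = m →
        Function.Injective
          ((QuotientGroup.mk' (Subgroup.normalClosure (Set.range w))).comp
            (Monoid.Coprod.inl : N →* Monoid.Coprod N (FreeGroup (Fin n))))) →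
      (∀ H : Subgroup (G ⧸ N), H.FG → H ≠ ⊥ →
        ∃ f : H →* Multiplicative ℤ, Function.Surjective f) →
      ∀ (m n : ℕ) (w : Fin m → Monoid.Coprod G (FreeGroup (Fin n))),
        (Matrix.of fun (i : Fin m) (j : Fin n) =>
          (((Multiplicative.toAdd
            (Monoid.Coprod.lift (1 : G →* Multiplicative (Fin n → ℤ))
              (FreeGroup.lift fun k => Multiplicative.ofAdd (Pi.single k (1 : ℤ))) (w i))) j : ℤ)
                : ℚ)).rank = m →
        Function.Injective
          ((QuotientGroup.mk' (Subgroup.normalClosure (Set.range w))).comp
            (Monoid.Coprod.inl : G →* Monoid.Coprod G (FreeGroup (Fin n))))) := by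
  refine ⟨fun hG => ?_, fun N _ hN hQ => ?_⟩
  · exact bridge.1 (howieProp_of_subgroups fun B hfg hB => bridge.2 (hG B hfg hB))
  · exact bridge.1 (howieProp_of_extension N (bridge.2 hN) hQ)

end Vale.Agent.Results.P174.CanonicalMapForm
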