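import Vale.Agent.P174.Abelian

/-!
The class of groups satisfying Howie's conjecture is closed under extensions with locally
indicable quotient.
-/

namespace Vale.Agent.Results.P174.ExtensionLI

open Vale.Agent.P174

universe u

theorem result {G : Type u} [Group G] (N : Subgroup G) [N.Normal]
    (hN : ∀ (m n : ℕ) (w : Fin m → Monoid.Coprod N (FreeGroup (Fin n))),
      Nonsingular w → SolvableOver w)
    (hQ : LocallyIndicable (G ⧸ N))
    (m n : ℕ) (w : Fin m → Monoid.Coprod G (FreeGroup (Fin n))) (hw : Nonsingular w) :
    SolvableOver w :=
  howieProp_of_extension N hN hQ m n w hw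

end Vale.Agent.Results.P174.ExtensionLI
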