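import Vale.Agent.P174.Main

/-!
Reduction of Howie's conjecture to finitely generated groups without nontrivial homomorphisms
to the integers.
-/

namespace Vale.Agent.Results.P174.Reduction

open Vale.Agent.P174

universe u

theorem result {G : Type u} [Group G]
    (hG : ∀ B : Subgroup G, B.FG → (∀ φ : B →* Multiplicative ℤ, φ = 1) →
      ∀ (m n : ℕ) (w : Fin m → Monoid.Coprod B (FreeGroup (Fin n))),
        Nonsingular w → SolvableOver w)
    (m n : ℕ) (w : Fin m → Monoid.Coprod G (FreeGroup (Fin n))) (hw : Nonsingular w) :
    SolvableOver w :=
  howieProp_of_subgroups hG m n w hw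

end Vale.Agent.Results.P174.Reduction
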